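import Vale.Agent.P207.N3.H732.ChainX
import Vale.Agent.P207.N3.Geo.MDat

/-!
# P207, dimension 3, P2-L: the density of the polar coordinates and `exp (∫ tr U)`
-/

open scoped Manifold ContDiff ENNReal NNReal Topology Matrix
open Bundle MeasureTheory Set Filter Metric

noncomputable section

set_option maxSynthPendingDepth 3
set_option linter.unusedSectionVars false

namespace Vale.Agent.P207.N3.H732

open Vale.Agent.P255 (RMetric Npc expg)
open Vale.Agent.P207.Q (Fr IsHorFlow flipF)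
open Vale.Agent.P207.Q.H892
open Vale.Agent.P207.N3.H465
open Vale.Agent.P207.N3.H566
open H348 (Polar)

variable {M : Type} [TopologicalSpace M] [ChartedSpace (EV 3) M]
  [IsManifold 𝓘(ℝ, EV 3) ∞ M] {g : RMetric (EV 3) M} [CompactSpace M] [T2Space M]
  {Φ : ℝ → Fr g → Fr g}

/-- **the two-sided estimate of the Jacobian of the exponential map** -/
theorem jac_two_sided (hΦ : IsHorFlow g (Pi.single 0 1) Φ) (D : MDat g Φ) :
    ∃ c C : ℝ, 0 < c ∧ 0 < C ∧ ∀ (f : Fr g) (s : ℝ), 1 ≤ s →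
      c * Real.exp (∫ r in (0 : ℝ)..s, D.t ((Φ r f).ut 0)) ≤
        |(Lf f).det| * (s ^ 2 * jac g f.pt (s • f.e 0)) ∧
      |(Lf f).det| * (s ^ 2 * jac g f.pt (s • f.e 0)) ≤
        C * Real.exp (∫ r in (0 : ℝ)..s, D.t ((Φ r f).ut 0)) := by
  set Lam : ℝ := max D.Lam 1 with hLam
  have hL : 0 < Lam := lt_max_of_lt_right one_pos
  have hl : 0 < D.lam := D.ur.pos
  set c : ℝ := ((1 - Real.exp (-(2 * Lam))) / (2 * Lam)) ^ 2 with hc
  have he : Real.exp (-(2 * Lam)) < 1 := by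
    rw [Real.exp_lt_one_iff]
    linarith
  have hc0 : 0 < (1 - Real.exp (-(2 * Lam))) / (2 * Lam) := div_pos (by linarith) (by linarith)
  refine ⟨c, (2 * D.lam)⁻¹ ^ 2, by positivity, by positivity, fun f s hs => ?_⟩
  have hs0 : 0 < s := by linarith
  obtain ⟨-, h1, h2⟩ := Vale.Agent.P207.Q.H129.jac_bounds_fr (k := 2) hΦ hl hL
    (fun f i j r => D.ur.ric f r i j) (D.symm hΦ) D.ur.lo
    (fun f x => (D.hi f x).trans (mul_le_mul_of_nonneg_right (le_max_left _ _)
      (Finset.sum_nonneg fun i _ => mul_self_nonneg _))) f hs0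
  have h3 : (∫ r in (0 : ℝ)..s, (D.U (Φ r f)).trace) = ∫ r in (0 : ℝ)..s, D.t ((Φ r f).ut 0) := by
    refine intervalIntegral.integral_congr fun r _ => ?_
    exact (D.t_eq (Φ r f)).symm
  rw [h3] at h1 h2
  have h4 := abs_det_Lf f
  have h5 : 0 ≤ |(Lf f).det| := abs_nonneg _
  set J := ∫ r in (0 : ℝ)..s, D.t ((Φ r f).ut 0) with hJ
  constructor
  · have h6 := mul_le_mul_of_nonneg_left h2 h5
    refine le_trans ?_ h6
    have h7 : |(Lf f).det| * (((1 - Real.exp (-(2 * Lam) * s)) / (2 * Lam)) ^ 2 *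
        (dens0 g f.pt * Real.exp J)) =
        (|(Lf f).det| * dens0 g f.pt) * (((1 - Real.exp (-(2 * Lam) * s)) / (2 * Lam)) ^ 2 *
          Real.exp J) := by ring
    rw [h7, h4, one_mul]
    refine mul_le_mul_of_nonneg_right ?_ (Real.exp_pos _).le
    refine pow_le_pow_left₀ hc0.le ?_ 2
    refine div_le_div_of_nonneg_right ?_ (by linarith)
    have h8 : Real.exp (-(2 * Lam) * s) ≤ Real.exp (-(2 * Lam)) :=
      Real.exp_le_exp.2 (by nlinarith)
    linarith
  · have h6 := mul_le_mul_of_nonneg_left h1 h5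
    refine h6.trans ?_
    have h7 : |(Lf f).det| * ((2 * D.lam)⁻¹ ^ 2 * (dens0 g f.pt * Real.exp J)) =
        (|(Lf f).det| * dens0 g f.pt) * ((2 * D.lam)⁻¹ ^ 2 * Real.exp J) := by ring
    rw [h7, h4, one_mul]

variable [Nonempty (Fr g)]

/-- **the two-sided estimate of the density of the polar coordinates**; `f` is a frame whose first
vector is the direction `u` in the frame `x` -/
theorem polV_bounds (hΦ : IsHorFlow g (Pi.single 0 1) Φ) (D : MDat g Φ) :
    ∃ c C : ℝ, 0 < c ∧ 0 < C ∧ ∀ (h : Npc (mt g)) (m : M) (x : XM h m)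
      (u : sphere (0 : EV 3) 1) (A : OG 3), act A (EuclideanSpace.single 0 1) = (u : EV 3) →
      ∀ s : ℝ, 1 ≤ s →
      ENNReal.ofReal (c * Real.exp (∫ r in (0 : ℝ)..s, D.t ((Φ r (XF.rot A x).f).ut 0))) ≤
        (polV h m x).j u s ∧
      (polV h m x).j u s ≤
        ENNReal.ofReal (C * Real.exp (∫ r in (0 : ℝ)..s, D.t ((Φ r (XF.rot A x).f).ut 0))) := by
  obtain ⟨c, C, hc, hC, H⟩ := jac_two_sided hΦ D
  refine ⟨c, C, hc, hC, fun h m x u A hA s hs => ?_⟩
  have hs0 : 0 ≤ s := by linarith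
  obtain ⟨h1, h2⟩ := H (XF.rot A x).f s hs
  have h3 : (XF.rot A x).f.e 0 = Lf x.f (u : EV 3) := by
    rw [← hA]
    exact rot_e_zero A x.f
  have h4 : |(Lf (XF.rot A x).f).det| = |(Lf x.f).det| := by
    have h5 := abs_det_Lf (XF.rot A x).f
    have h6 := abs_det_Lf x.f
    have h7 : dens0 g (XF.rot A x).f.pt = dens0 g x.f.pt := rfl
    have h8 : dens0 g x.f.pt ≠ 0 := by
      intro h0
      rw [h0, mul_zero] at h6
      exact zero_ne_one h6
    rw [h7] at h5
    exact mul_right_cancel₀ h8 (h5.trans h6.symm)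
  have h9 : (polV h m x).j u s = ENNReal.ofReal (|(Lf (XF.rot A x).f).det| *
      (s ^ 2 * jac g (XF.rot A x).f.pt (s • (XF.rot A x).f.e 0))) := by
    rw [polV_j h m x u hs0, h4, h3]
    rfl
  rw [h9]
  exact ⟨ENNReal.ofReal_le_ofReal h1, ENNReal.ofReal_le_ofReal h2⟩

end Vale.Agent.P207.N3.H732
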