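import Vale.Agent.P207.N3.H465.FrMet
import Vale.Agent.P207.N3.Geo.Over
import Vale.Agent.P207.N3.H732.HolU
import Vale.Agent.P207.N3.H732.LeafA
import Vale.Agent.P207.Q.H743.CurvSm

/-!
# P207, dimension 3, P2-L: Hölder continuity of the unstable Riccati solution of `M`

`hold_U`: the entries of `D.U` are Hölder continuous on `Fr g` (465's metric).
`hold_t`, `hold_t_flip`: the trace `D.t`, on `Fr g` and on every space `X` with a Lipschitz map
to `Fr g` (`hold_t_over`, `hold_t_flip_over`).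
-/

open scoped Manifold ContDiff ENNReal Topology Matrix
open Bundle MeasureTheory Set Filter

set_option maxSynthPendingDepth 3
set_option linter.unusedSectionVars false

noncomputable section

namespace Vale.Agent.P207.N3.H732

open Vale.Agent.P255 (RMetric)
open Vale.Agent.P207.Q Vale.Agent.P207.Q.H130
open Vale.Agent.P207.Q.H743 (smF_Rf)
open Vale.Agent.P207.Q.H545 (Rf)

variable {M : Type} [TopologicalSpace M] [ChartedSpace (EV 3) M] [IsManifold 𝓘(ℝ, EV 3) ∞ M]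
  [CompactSpace M] [T2Space M] {g : RMetric (EV 3) M} {Φ : ℝ → Fr g → Fr g}

/-- the curvature matrix is Lipschitz -/
theorem lip_Km (g : RMetric (EV 3) M) : ∃ C : ℝ, 0 ≤ C ∧ ∀ (f f' : Fr g) (i j : Fin 2),
    |Km g f i j - Km g f' i j| ≤ C * dist f f' := by
  have h1 : ∀ i j : Fin 2, ∃ C : ℝ, 0 < C ∧ ∀ f f' : Fr g,
      |Km g f i j - Km g f' i j| ≤ C * dist f f' := by
    intro i j
    obtain ⟨C, hC, h⟩ := (smF_Rf (g := g) i.succ 0 0 j.succ).exists_lip
    refine ⟨C, hC, fun f f' => ?_⟩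
    have h2 := h f f'
    rw [Real.norm_eq_abs] at h2
    have h3 : Km g f i j - Km g f' i j =
        -(Rf g f i.succ 0 0 j.succ - Rf g f' i.succ 0 0 j.succ) := by
      unfold Km
      ring
    rw [h3, abs_neg]
    exact h2
  choose C hC h using h1
  refine ⟨∑ i, ∑ j, C i j, Finset.sum_nonneg fun i _ => Finset.sum_nonneg fun j _ => (hC i j).le,
    fun f f' i j => (h i j f f').trans (mul_le_mul_of_nonneg_right ?_ dist_nonneg)⟩
  exact (Finset.single_le_sum (f := fun j => C i j) (fun j _ => (hC i j).le)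
    (Finset.mem_univ j)).trans (Finset.single_le_sum (f := fun i => ∑ j, C i j)
    (fun i _ => Finset.sum_nonneg fun j _ => (hC i j).le) (Finset.mem_univ i))

/-- **The unstable Riccati solution is Hölder continuous.** -/
theorem hold_U (hΦ : IsHorFlow g (Pi.single 0 1) Φ) (D : MDat g Φ) :
    ∃ C α : ℝ, 0 ≤ C ∧ 0 < α ∧ α ≤ 1 ∧ ∀ (f f' : Fr g) (i j : Fin 2),
      |D.U f i j - D.U f' i j| ≤ C * dist f f' ^ α := by
  obtain ⟨K, hK, hK'⟩ := hΦ.isFlow.exists_dist_le
  obtain ⟨CK, hCK, hKm⟩ := lip_Km g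
  refine hold_of_riccati (Φ := Φ) (A := 1) (L := K) (CK := CK) (lam := D.lam) (B := D.Lam)
    (K := Km g) hΦ.zero hK.le zero_le_one (fun t ht z z' => ?_) hCK hKm D.ur.pos D.ur.lo D.ur.bd
    D.ur.ric
  have h1 := hK' (-t) z z'
  rw [abs_neg, abs_of_nonneg ht] at h1
  rw [one_mul]
  exact h1

theorem hold_t (hΦ : IsHorFlow g (Pi.single 0 1) Φ) (D : MDat g Φ) :
    Hold fun f : Fr g => D.t (f.ut 0) := by
  obtain ⟨C, α, hC, hα, -, h⟩ := hold_U hΦ D
  refine ⟨2 * C, α, hα, fun f f' => ?_⟩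
  change |D.t (f.ut 0) - D.t (f'.ut 0)| ≤ _
  rw [D.t_eq, D.t_eq, Matrix.trace_fin_two, Matrix.trace_fin_two]
  have h1 := abs_le.1 (h f f' 0 0)
  have h2 := abs_le.1 (h f f' 1 1)
  rw [abs_le]
  constructor <;> linarith [h1.1, h1.2, h2.1, h2.2]

/-- composition with a Lipschitz map -/
theorem Hold.comp_lip {X Y : Type} [MetricSpace X] [MetricSpace Y] {W : Y → ℝ} (hW : Hold W)
    {f : X → Y} {C : ℝ} (hf : ∀ x x', dist (f x) (f x') ≤ C * dist x x') :
    Hold fun x => W (f x) := by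
  obtain ⟨A, α, hα, h⟩ := hW
  refine ⟨|A| * |C| ^ α, α, hα, fun x x' => ?_⟩
  have h1 : dist (f x) (f x') ≤ |C| * dist x x' :=
    (hf x x').trans (mul_le_mul_of_nonneg_right (le_abs_self C) dist_nonneg)
  calc |W (f x) - W (f x')| ≤ A * dist (f x) (f x') ^ α := h _ _
    _ ≤ |A| * dist (f x) (f x') ^ α :=
      mul_le_mul_of_nonneg_right (le_abs_self A) (Real.rpow_nonneg dist_nonneg _)
    _ ≤ |A| * (|C| * dist x x') ^ α :=
      mul_le_mul_of_nonneg_left (Real.rpow_le_rpow dist_nonneg h1 hα.le) (abs_nonneg A)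
    _ = |A| * |C| ^ α * dist x x' ^ α := by
      rw [Real.mul_rpow (abs_nonneg C) dist_nonneg, mul_assoc]

theorem lip_flipF (g : RMetric (EV 3) M) :
    ∃ C : ℝ, 0 < C ∧ ∀ f f' : Fr g, dist (flipF f) (flipF f') ≤ C * dist f f' := by
  obtain ⟨C, hC, h⟩ := H465.exists_dist_rot_le (g := g)
  exact ⟨C, hC, fun f f' => h _ f f'⟩

theorem hold_t_flip (hΦ : IsHorFlow g (Pi.single 0 1) Φ) (D : MDat g Φ) :
    Hold fun f : Fr g => D.t ((flipF f).ut 0) := by
  obtain ⟨C, -, h⟩ := lip_flipF g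
  exact (hold_t hΦ D).comp_lip h

section Over

variable {Γ X B : Type} [Group Γ] [MetricSpace X] [ProperSpace X] [MulAction Γ X]
  [IsIsometricSMul Γ X] [TopologicalSpace B] [CompactSpace B] [T2Space B] [MulAction Γ B]
  [ContinuousConstSMul Γ B] {L : Leaf Γ X B} {fr : X → Fr g}

theorem hold_t_over (hΦ : IsHorFlow g (Pi.single 0 1) Φ) (D : MDat g Φ) {C : ℝ}
    (hfr : ∀ x x', dist (fr x) (fr x') ≤ C * dist x x') :
    Hold fun x => D.t ((fr x).ut 0) := (hold_t hΦ D).comp_lip hfr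

theorem hold_t_flip_over (hΦ : IsHorFlow g (Pi.single 0 1) Φ) (D : MDat g Φ) (O : Over Φ L fr)
    {C : ℝ} (hfr : ∀ x x', dist (fr x) (fr x') ≤ C * dist x x') :
    Hold fun x => D.t ((fr (L.flip x)).ut 0) := by
  simp only [O.flip]
  exact (hold_t_flip hΦ D).comp_lip hfr

end Over

end Vale.Agent.P207.N3.H732
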