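import Vale.Agent.P207.Q.H892.Meas
import Vale.Agent.P207.N3.H732.Disint

/-!
# P207, dimension 3, P2-L: Liouville-null sets and directions

If `G` has full Liouville measure, then for almost every point `x` of `M` almost every direction
at `x` belongs to `G`; the directions are described by a frame `f` at `x`.
-/

open scoped Manifold ContDiff ENNReal NNReal Topology BoundedContinuousFunction Pointwise
open Bundle MeasureTheory Set Filter

noncomputable section

set_option linter.unusedSectionVars false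

namespace Vale.Agent.P207.N3.H732

open Vale.Agent.P255 (RMetric)
open Vale.Agent.P207.Q (Fr)
open Vale.Agent.P207.Q.H892

variable {n : ℕ} {M : Type} [TopologicalSpace M] [ChartedSpace (EV n) M]
  [IsManifold 𝓘(ℝ, EV n) ∞ M] {g : RMetric (EV n) M}

/-! ### directions -/

theorem Lf_injective (f : Fr g) : Function.Injective (Lf f) := by
  rw [injective_iff_map_eq_zero]
  intro v hv
  have h1 := inner_Lf f v v
  rw [hv, map_zero] at h1
  exact (inner_self_eq_zero (𝕜 := ℝ)).1 h1.symm

theorem Lf_ne (f : Fr g) {w : EV n} (hw : w ≠ 0) : Lf f w ≠ 0 :=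
  fun h => hw (Lf_injective f (h.trans (map_zero _).symm))

/-- `Lf f w` as a tangent vector -/
def Lft (f : Fr g) (w : EV n) : TangentSpace 𝓘(ℝ, EV n) f.pt := Lf f w

theorem Lft_ne (f : Fr g) {w : EV n} (hw : w ≠ 0) : Lft f w ≠ 0 := Lf_ne f hw

open Classical in
/-- the unit vector with the direction `w` in the frame `f` (`w ≠ 0`) -/
def dirF [NeZero n] (f : Fr g) (w : EV n) : UT g :=
  if h : w = 0 then f.ut 0 else unitDir g f.pt (Lft f w) (Lft_ne f h)

theorem dirF_of_ne [NeZero n] (f : Fr g) {w : EV n} (hw : w ≠ 0) :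
    dirF f w = unitDir g f.pt (Lft f w) (Lft_ne f hw) := dif_neg hw

theorem radial_dirF [NeZero n] (a : UT g → ℝ) (f : Fr g) {w : EV n} (hw : w ≠ 0) :
    radial g a f.pt (Lf f w) = a (dirF f w) := by
  rw [dirF_of_ne f hw]
  exact dif_neg (Lft_ne f hw)

theorem dirF_of_norm [NeZero n] (f : Fr g) {w : EV n} (hw : ‖w‖ = 1) (h : g.inner f.pt (Lft f w)
    (Lft f w) = 1) : dirF f w = ⟨⟨f.pt, Lft f w⟩, h⟩ := by
  have hw0 : w ≠ 0 := by
    rintro rfl
    simp at hw
  rw [dirF_of_ne f hw0]
  apply Subtype.ext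
  unfold unitDir
  simp only [h, Real.sqrt_one, inv_one, one_smul]

theorem inner_Lft (f : Fr g) (w : EV n) : g.inner f.pt (Lft f w) (Lft f w) = ‖w‖ ^ 2 := by
  have h := inner_Lf f w w
  rw [real_inner_self_eq_norm_sq] at h
  exact h

/-- the first vector of a rotated frame -/
theorem dirF_act [NeZero n] (f : Fr g) (A : OG n) :
    dirF f (act A (EuclideanSpace.single 0 1)) = (Fr.rot A f).ut 0 := by
  have h1 : ‖act A (EuclideanSpace.single (0 : Fin n) (1 : ℝ))‖ = 1 := by
    rw [norm_act]; simp
  have h2 : g.inner f.pt (Lft f (act A (EuclideanSpace.single 0 1)))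
      (Lft f (act A (EuclideanSpace.single 0 1))) = 1 := by
    rw [inner_Lft, h1, one_pow]
  rw [dirF_of_norm f h1 h2]
  apply Subtype.ext
  exact congrArg (fun w : TangentSpace 𝓘(ℝ, EV n) f.pt =>
    (⟨f.pt, w⟩ : TangentBundle 𝓘(ℝ, EV n) M)) (rot_e_zero A f).symm

/-! ### measurability -/

theorem measurable_of_cont_comp {α β : Type*} [MeasurableSpace α] [TopologicalSpace β]
    [TopologicalSpace.MetrizableSpace β] [MeasurableSpace β] [BorelSpace β] {f : α → β}
    (h : ∀ a : β → ℝ, Continuous a → Measurable fun x => a (f x)) : Measurable f := by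
  let := TopologicalSpace.metrizableSpaceMetric β
  refine measurable_of_isClosed' fun F hF hne _ => ?_
  have h1 : f ⁻¹' F = (fun x => Metric.infDist (f x) F) ⁻¹' {0} := by
    ext x
    rw [mem_preimage, mem_preimage, mem_singleton_iff, hF.mem_iff_infDist_zero hne]
  rw [h1]
  exact h _ (Metric.continuous_infDist_pt F) (measurableSet_singleton 0)

variable [CompactSpace M] [T2Space M]

/-- positive homogeneity -/
theorem dirF_smul [NeZero n] (f : Fr g) {w : EV n} (hw : w ≠ 0) {c : ℝ} (hc : 0 < c) :
    dirF f (c • w) = dirF f w := by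
  have hcw : c • w ≠ 0 := smul_ne_zero hc.ne' hw
  have h0 : ∀ a : UT g → ℝ, a (dirF f (c • w)) = a (dirF f w) := by
    intro a
    have h1 := radial_pos_smul g a f.pt (Lft f w) hc
    have h2 : c • Lft f w = Lft f (c • w) := (map_smul (Lf f) c w).symm
    rw [h2] at h1
    have h3 := radial_dirF a f hcw
    have h4 := radial_dirF a f hw
    exact h3.symm.trans (h1.trans h4)
  classical
  have h5 := h0 (fun p => if p = dirF f w then 1 else 0)
  simp only [if_true] at h5
  by_contra hne
  rw [if_neg hne] at h5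
  exact zero_ne_one h5

theorem measurable_dirF [NeZero n] (f : Fr g) : Measurable (dirF f) := by
  have := metrizableSpace_UT g
  refine measurable_of_cont_comp fun a ha => ?_
  have h1 : (fun w => a (dirF f w)) =
      fun w => if w = 0 then a (f.ut 0) else radial g a f.pt (Lf f w) := by
    funext w
    split_ifs with h
    · rw [h]
      unfold dirF
      rw [dif_pos rfl]
    · exact (radial_dirF a f h).symm
  rw [h1]
  exact Measurable.ite (measurableSet_singleton 0) measurable_const
    ((measurable_radial g ha f.pt).comp (Lf f).continuous.measurable)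

/-- the law of the direction of a random vector of the unit ball -/
def sg [NeZero n] (f : Fr g) : Measure (UT g) :=
  Measure.map (dirF f) ((volume (Metric.ball (0 : EV n) 1))⁻¹ •
    (volume : Measure (EV n)).restrict (Metric.ball 0 1))

theorem vol_ball_pos : 0 < volume (Metric.ball (0 : EV n) 1) :=
  Metric.measure_ball_pos volume 0 one_pos

theorem vol_ball_lt : volume (Metric.ball (0 : EV n) 1) < ⊤ := measure_ball_lt_top

theorem isProb_ball : IsProbabilityMeasure ((volume (Metric.ball (0 : EV n) 1))⁻¹ •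
    (volume : Measure (EV n)).restrict (Metric.ball 0 1)) := by
  refine ⟨?_⟩
  rw [Measure.smul_apply, Measure.restrict_apply MeasurableSet.univ, univ_inter, smul_eq_mul,
    ENNReal.inv_mul_cancel vol_ball_pos.ne' vol_ball_lt.ne]

instance isProb_sg [NeZero n] (f : Fr g) : IsProbabilityMeasure (sg f) := by
  have := isProb_ball (n := n)
  exact Measure.isProbabilityMeasure_map (measurable_dirF f).aemeasurable

theorem ae_ne_zero' [NeZero n] : ∀ᵐ w : EV n, w ≠ 0 := by
  rw [ae_iff]; simp

theorem integral_sg [NeZero n] {a : UT g → ℝ} (ha : Continuous a) (f : Fr g) :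
    ∫ p, a p ∂sg f = sphAvg g a f.pt := by
  have := metrizableSpace_UT g
  have h2 : sphAvg g a f.pt = avgB ((innerB g f.pt).bilinearComp (Lf f) (Lf f))
      (fun w => radial g a f.pt (Lf f w)) :=
    (avgB_comp (innerB g f.pt) (Lf_injective f) (fun v => radial g a f.pt v)).symm
  have h3 : ballB ((innerB g f.pt).bilinearComp (Lf f) (Lf f)) = Metric.ball (0 : EV n) 1 := by
    ext w
    rw [mem_ball_zero_iff]
    change innerB g f.pt (Lf f w) (Lf f w) < 1 ↔ _
    rw [inner_Lf, real_inner_self_eq_norm_sq]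
    constructor
    · intro h
      nlinarith [norm_nonneg w]
    · intro h
      nlinarith [norm_nonneg w]
  rw [h2]
  unfold avgB sg
  rw [h3, integral_map (measurable_dirF f).aemeasurable ha.aestronglyMeasurable,
    integral_smul_measure, ENNReal.toReal_inv, smul_eq_mul, inv_mul_eq_div]
  congr 1
  refine integral_congr_ae (ae_restrict_of_ae ?_)
  filter_upwards [ae_ne_zero' (n := n)] with w hw
  exact (radial_dirF a f hw).symm

theorem lintegral_sg [NeZero n] (a : UT g →ᵇ ℝ≥0) (f : Fr g) :
    ∫⁻ p, a p ∂sg f = ENNReal.ofReal (sphAvg g (fun p => (a p : ℝ)) f.pt) := by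
  have := metrizableSpace_UT g
  have hc : Continuous fun p : UT g => (a p : ℝ) := NNReal.continuous_coe.comp a.continuous
  have := compactSpace_UT g
  have hi : Integrable (fun p : UT g => (a p : ℝ)) (sg f) := by
    obtain ⟨C, hC0, hC⟩ := exists_abs_le hc
    exact Integrable.of_bound hc.aestronglyMeasurable C (Eventually.of_forall hC)
  rw [← integral_sg hc, ofReal_integral_eq_lintegral_ofReal hi
    (Eventually.of_forall fun p => NNReal.coe_nonneg _)]
  simp

variable [MeasurableSpace M] [BorelSpace M] {μ : Measure M} {m : Measure (UT g)}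

/-- **Liouville-null sets are null in almost every fibre.** -/
theorem ae_dir [Nonempty M] [NeZero n] (hμ : IsRiemVol g μ) (hm : IsLiouville g μ m) {G : Set (UT g)}
    (hG : ∀ᵐ v ∂m, v ∈ G) :
    ∀ᵐ x ∂μ, ∀ f : Fr g, f.pt = x → ∀ᵐ w : EV n, w ≠ 0 → dirF f w ∈ G := by
  have := metrizableSpace_UT g
  have := compactSpace_UT g
  have := isProb_nvol (g := g) hμ
  have := hm.1
  have := hμ.isFiniteMeasure
  have hn : 1 ≤ n := Nat.one_le_iff_ne_zero.2 (NeZero.ne n)
  -- frames
  choose fr hfr using exists_frame g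
  -- disintegration
  have h1 : ∀ᵐ x ∂nvol μ, ∀ᵐ p ∂sg (fr x), p ∈ G := by
    refine ae_of_disint (fun x => sg (fr x)) (fun a => ?_) (fun a => ?_) hG
    · have h2 : (fun x => ∫⁻ p, a p ∂sg (fr x)) =
          fun x => ENNReal.ofReal (sphAvg g (fun p => (a p : ℝ)) x) := by
        funext x
        rw [lintegral_sg, hfr]
      rw [h2]
      exact (ENNReal.continuous_ofReal.comp
        (continuous_sphAvg hn (NNReal.continuous_coe.comp a.continuous))).measurable
    · have hc : Continuous fun p : UT g => (a p : ℝ) := NNReal.continuous_coe.comp a.continuous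
      have hi : Integrable (fun p : UT g => (a p : ℝ)) m := by
        obtain ⟨C, hC0, hC⟩ := exists_abs_le hc
        exact Integrable.of_bound hc.aestronglyMeasurable C (Eventually.of_forall hC)
      have hi2 : Integrable (sphAvg g (fun p => (a p : ℝ))) (nvol μ) := by
        have hcs := continuous_sphAvg (g := g) hn hc
        obtain ⟨C, hC⟩ := isCompact_univ.exists_bound_of_continuousOn
          (f := sphAvg g (fun p => (a p : ℝ))) hcs.continuousOn
        exact Integrable.of_bound hcs.aestronglyMeasurable C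
          (Eventually.of_forall fun x => hC x (mem_univ x))
      have h3 : ∫⁻ p, a p ∂m = ENNReal.ofReal (∫ p, (a p : ℝ) ∂m) := by
        rw [ofReal_integral_eq_lintegral_ofReal hi
          (Eventually.of_forall fun p => NNReal.coe_nonneg _)]
        simp
      rw [h3, hm.2 _ hc, ← integral_nvol, ofReal_integral_eq_lintegral_ofReal hi2
        (Eventually.of_forall fun x => sphAvg_nonneg (fun p => NNReal.coe_nonneg _) x)]
      refine lintegral_congr fun x => ?_
      rw [lintegral_sg, hfr]
  have h4 : ∀ᵐ x ∂μ, ∀ᵐ p ∂sg (fr x), p ∈ G := by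
    unfold nvol at h1
    rwa [Measure.ae_ennreal_smul_measure_iff (ENNReal.inv_ne_zero.2 (measure_ne_top μ _))] at h1
  filter_upwards [h4] with x hx f hf
  -- the law does not depend on the frame
  have h5 : sg (fr x) = sg f := by
    refine measure_ext fun a ha => ?_
    rw [integral_sg ha, integral_sg ha, hfr, hf]
  rw [h5] at hx
  have h6 : ∀ᵐ w ∂((volume : Measure (EV n)).restrict (Metric.ball 0 1)), dirF f w ∈ G := by
    have h7 := ae_of_ae_map (measurable_dirF f).aemeasurable hx
    rwa [Measure.ae_ennreal_smul_measure_iff (ENNReal.inv_ne_zero.2 vol_ball_lt.ne)] at h7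
  -- the cone
  set Z : Set (EV n) := {w | w ≠ 0 ∧ dirF f w ∉ G} with hZ
  have h8 : volume (Z ∩ Metric.ball 0 1) = 0 := by
    have h9 := (ae_restrict_iff' Metric.isOpen_ball.measurableSet).1 h6
    refine measure_mono_null ?_ (ae_iff.1 h9)
    intro w hw h
    exact hw.1.2 (h hw.2)
  have h10 : ∀ k : ℕ, volume (Z ∩ Metric.ball 0 (k + 1 : ℝ)) = 0 := by
    intro k
    have hk : (0 : ℝ) < k + 1 := by positivity
    refine measure_mono_null (t := (k + 1 : ℝ) • (Z ∩ Metric.ball 0 1)) ?_ ?_
    · intro w hw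
      rw [mem_smul_set_iff_inv_smul_mem₀ hk.ne']
      refine ⟨⟨smul_ne_zero (inv_ne_zero hk.ne') hw.1.1, ?_⟩, ?_⟩
      · rw [dirF_smul f hw.1.1 (inv_pos.2 hk)]
        exact hw.1.2
      · rw [mem_ball_zero_iff, norm_smul, Real.norm_eq_abs, abs_of_pos (inv_pos.2 hk),
          inv_mul_lt_iff₀ hk, mul_one]
        exact mem_ball_zero_iff.1 hw.2
    · rw [Measure.addHaar_smul, h8, mul_zero]
  rw [ae_iff]
  refine measure_mono_null (t := ⋃ k : ℕ, Z ∩ Metric.ball 0 (k + 1 : ℝ)) ?_
    (measure_iUnion_null h10)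
  intro w hw
  have hw' : w ≠ 0 ∧ dirF f w ∉ G := by
    simpa using hw
  obtain ⟨k, hk⟩ := exists_nat_gt ‖w‖
  exact mem_iUnion.2 ⟨k, hw', mem_ball_zero_iff.2 (by linarith)⟩

/-! ### the unit sphere -/

theorem ae_sphere_of_ae [NeZero n] {P : EV n → Prop}
    (hP : ∀ᵐ w : EV n, w ≠ 0 → P w) (hc : ∀ w, w ≠ 0 → ∀ c : ℝ, 0 < c → P (c • w) → P w) :
    ∀ᵐ u : Metric.sphere (0 : EV n) 1 ∂(volume : Measure (EV n)).toSphere, P (u : EV n) := by
  have h0 : ∀ᵐ w : ({(0 : EV n)}ᶜ : Set (EV n)) ∂(volume.comap Subtype.val), P (w : EV n) := by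
    have h1 := (ae_restrict_iff' (measurableSet_singleton (0 : EV n)).compl).2 hP
    have h2 := (MeasurableEmbedding.subtype_coe
      (measurableSet_singleton (0 : EV n)).compl).map_comap volume
    rw [Subtype.range_coe] at h2
    rw [← h2] at h1
    exact ae_of_ae_map measurable_subtype_coe.aemeasurable h1
  have hmp := (volume : Measure (EV n)).measurePreserving_homeomorphUnitSphereProd
  have h3 : ∀ᵐ z ∂((volume : Measure (EV n)).toSphere.prod
      (Measure.volumeIoiPow (Module.finrank ℝ (EV n) - 1))), P ((z.1 : EV n)) := by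
    have h4 := hmp.symm (homeomorphUnitSphereProd (EV n)).toMeasurableEquiv
    have h5 := h4.quasiMeasurePreserving.ae h0
    filter_upwards [h5] with z hz
    have h6 : (((homeomorphUnitSphereProd (EV n)).toMeasurableEquiv.symm z : ({(0 : EV n)}ᶜ :
        Set (EV n))) : EV n) = (z.2 : ℝ) • (z.1 : EV n) := by
      change (((homeomorphUnitSphereProd (EV n)).symm z : ({(0 : EV n)}ᶜ : Set (EV n))) : EV n) = _
      rw [homeomorphUnitSphereProd_symm_apply_coe]
    rw [h6] at hz
    refine hc z.1 ?_ z.2 z.2.2 hz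
    intro h7
    have h8 : ‖(z.1 : EV n)‖ = 1 := mem_sphere_zero_iff_norm.1 z.1.2
    rw [h7, norm_zero] at h8
    exact zero_ne_one h8
  have h9 := Measure.ae_ae_of_ae_prod h3
  filter_upwards [h9] with u hu
  by_contra hcon
  have h10 : ∀ᵐ r : Ioi (0 : ℝ) ∂(Measure.volumeIoiPow (Module.finrank ℝ (EV n) - 1)), False :=
    hu.mono fun r hr => hcon hr
  have h11 : Measure.volumeIoiPow (Module.finrank ℝ (EV n) - 1) = 0 := by
    rw [← ae_eq_bot]
    exact Filter.eventually_false_iff_eq_bot.1 h10
  have h12 : Measure.volumeIoiPow (Module.finrank ℝ (EV n) - 1) (Iio ⟨1, mem_Ioi.2 one_pos⟩) = 0 := by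
    rw [h11]; rfl
  rw [Measure.volumeIoiPow_apply_Iio] at h12
  simp only [one_pow, ENNReal.ofReal_eq_zero] at h12
  have h13 : (0 : ℝ) < 1 / ((Module.finrank ℝ (EV n) - 1 : ℕ) + 1) := by positivity
  linarith

/-- **Liouville-null sets are null in almost every unit sphere.** -/
theorem ae_dir_sphere [Nonempty M] [NeZero n] (hμ : IsRiemVol g μ) (hm : IsLiouville g μ m)
    {G : Set (UT g)} (hG : ∀ᵐ v ∂m, v ∈ G) :
    ∀ᵐ x ∂μ, ∀ f : Fr g, f.pt = x →
      ∀ᵐ u : Metric.sphere (0 : EV n) 1 ∂(volume : Measure (EV n)).toSphere, dirF f (u : EV n) ∈ G := by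
  filter_upwards [ae_dir hμ hm hG] with x hx f hf
  refine ae_sphere_of_ae (P := fun w => dirF f w ∈ G) (hx f hf) fun w hw c hc h => ?_
  rwa [dirF_smul f hw hc] at h

/-! ### pull back by a local diffeomorphism -/

theorem null_chart (hμ : IsRiemVol g μ) (a : M) {s : Set M} (hs : MeasurableSet s)
    (hsa : s ⊆ (chartAt (EV n) a).source) (h0 : μ s = 0) :
    volume ((chartAt (EV n) a) '' s) = 0 := by
  have h1 := h0
  rw [hμ a s hs hsa] at h1
  change ∫⁻ u in (chartAt (EV n) a) '' s, ENNReal.ofReal (dens g a u) = 0 at h1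
  have h2 : MeasurableSet ((chartAt (EV n) a) '' s) := measurableSet_chart_image a hs hsa
  have hsub : (chartAt (EV n) a) '' s ⊆ (chartAt (EV n) a).target := by
    rintro _ ⟨y, hy, rfl⟩
    exact (chartAt (EV n) a).map_source (hsa hy)
  have h4 : AEMeasurable (fun u => ENNReal.ofReal (dens g a u))
      (volume.restrict ((chartAt (EV n) a) '' s)) :=
    (((continuousOn_dens g a).mono hsub).aemeasurable h2).ennreal_ofReal
  rw [lintegral_eq_zero_iff' h4] at h1
  have h5 : ∀ᵐ u ∂volume.restrict ((chartAt (EV n) a) '' s), False := by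
    filter_upwards [h1, ae_restrict_mem h2] with u hu hu2
    have := dens_pos g a (hsub hu2)
    simp only [Pi.zero_apply, ENNReal.ofReal_eq_zero] at hu
    linarith
  have h6 : volume.restrict ((chartAt (EV n) a) '' s) = 0 := by
    have := ae_iff.1 h5
    simpa using this
  rw [Measure.restrict_eq_zero] at h6
  exact h6

/-- **Null sets of `M` have null preimages under a local diffeomorphism.** -/
theorem ae_pull {p : EV n → M} (hp : Continuous p)
    (hsm : ∀ (a : M) (q : EV n), p q ∈ (chartAt (EV n) a).source →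
      ContDiffAt ℝ ∞ (fun z => chartAt (EV n) a (p z)) q)
    (hinv : ∀ (a : M) (q : EV n), p q ∈ (chartAt (EV n) a).source →
      ∃ L : EV n ≃L[ℝ] EV n,
        HasFDerivAt (fun z => chartAt (EV n) a (p z)) (L : EV n →L[ℝ] EV n) q)
    (hμ : IsRiemVol g μ) {P : M → Prop} (hP : ∀ᵐ x ∂μ, P x) : ∀ᵐ q : EV n, P (p q) := by
  set N : Set M := toMeasurable μ {x | ¬ P x} with hN
  have hNm : MeasurableSet N := measurableSet_toMeasurable _ _
  have hN0 : μ N = 0 := (measure_toMeasurable _).trans (ae_iff.1 hP)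
  have key : volume (p ⁻¹' N) = 0 := by
    refine measure_null_of_locally_null _ fun q _ => ?_
    set a : M := p q with ha
    have haq : p q ∈ (chartAt (EV n) a).source := mem_chart_source _ _
    obtain ⟨L, hL⟩ := hinv a q haq
    have hc : ContDiffAt ℝ 1 (fun z => chartAt (EV n) a (p z)) q :=
      (hsm a q haq).of_le (by norm_num)
    set e := hc.toOpenPartialHomeomorph _ hL one_ne_zero with he
    have hei : ContDiffAt ℝ 1 e.symm (chartAt (EV n) a (p q)) :=
      hc.to_localInverse hL one_ne_zero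
    have h1 : ∀ᶠ z in 𝓝 (chartAt (EV n) a (p q)), DifferentiableAt ℝ e.symm z := by
      filter_upwards [hei.eventually (by simp)] with z hz
      exact hz.differentiableAt one_ne_zero
    have hcq : ContinuousAt (fun z => chartAt (EV n) a (p z)) q := hc.continuousAt
    have h2 : ∀ᶠ z in 𝓝 q, DifferentiableAt ℝ e.symm (chartAt (EV n) a (p z)) :=
      hcq.eventually h1
    have h3 : ∀ᶠ z in 𝓝 q, p z ∈ (chartAt (EV n) a).source :=
      hp.continuousAt.eventually ((chartAt (EV n) a).open_source.mem_nhds haq)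
    have h4 : ∀ᶠ z in 𝓝 q, z ∈ e.source :=
      e.open_source.mem_nhds (hc.mem_toOpenPartialHomeomorph_source hL one_ne_zero)
    refine ⟨{z | DifferentiableAt ℝ e.symm (chartAt (EV n) a (p z)) ∧
      p z ∈ (chartAt (EV n) a).source ∧ z ∈ e.source} ∩ p ⁻¹' N,
      inter_mem (mem_nhdsWithin_of_mem_nhds (by filter_upwards [h2, h3, h4] with z a b c
                                                exact ⟨a, b, c⟩)) self_mem_nhdsWithin, ?_⟩
    set Z : Set (EV n) := (chartAt (EV n) a) '' (N ∩ (chartAt (EV n) a).source) with hZ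
    have hZ0 : volume Z = 0 := null_chart hμ a
      (hNm.inter (chartAt (EV n) a).open_source.measurableSet) inter_subset_right
      (measure_mono_null inter_subset_left hN0)
    set W : Set (EV n) := {z | DifferentiableAt ℝ e.symm z} with hW
    have h5 : volume (e.symm '' (Z ∩ W)) = 0 := by
      refine addHaar_image_eq_zero_of_differentiableOn_of_addHaar_eq_zero volume
        (fun z hz => ?_) (measure_mono_null inter_subset_left hZ0)
      exact (show DifferentiableAt ℝ e.symm z from hz.2).differentiableWithinAt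
    refine measure_mono_null ?_ h5
    rintro z ⟨⟨hz1, hz2, hz3⟩, hz4⟩
    refine ⟨chartAt (EV n) a (p z), ⟨⟨p z, ⟨hz4, hz2⟩, rfl⟩, hz1⟩, ?_⟩
    exact e.left_inv hz3
  rw [ae_iff]
  refine measure_mono_null (fun q hq => ?_) key
  exact subset_toMeasurable _ _ hq

end Vale.Agent.P207.N3.H732
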